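import Vale.Agent.P100.Bernstein.Spec

/-!
# Exactness of the unpacking
-/

namespace Vale.Agent.P100.Bernstein

open Finset

variable {R : Type*} [CommRing R]

/-- The terms of exponent `j` in the first variable, in the remaining variables. -/
def slice (j : ℕ) (L : Terms) : Terms :=
  (L.filter fun p => decide (p.2 0 = j)).map fun p => (p.1, fun i => p.2 (i + 1))

theorem evT_slice {n : ℕ} (d : ℕ) (e : ℕ → ℕ) (s t : ℕ → R) :
    ∀ L : Terms, (∀ p ∈ L, p.2 0 ≤ d) →
      evT (n + 1) (fun i => if i = 0 then d else e (i - 1)) L s t =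
        ∑ j ∈ range (d + 1), s 0 ^ (d - j) * t 0 ^ j *
          evT n e (slice j L) (fun i => s (i + 1)) fun i => t (i + 1)
  | [], _ => by simp [evT, slice]
  | p :: L, hL => by
    have hp := hL p List.mem_cons_self
    have ih := evT_slice (n := n) d e s t L fun q hq => hL q (List.mem_cons_of_mem _ hq)
    have key : ∀ j, s 0 ^ (d - j) * t 0 ^ j *
          evT n e (slice j (p :: L)) (fun i => s (i + 1)) (fun i => t (i + 1)) =
        (if p.2 0 = j then (p.1 : R) * (s 0 ^ (d - j) * t 0 ^ j *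
          mono n e (fun i => p.2 (i + 1)) (fun i => s (i + 1)) fun i => t (i + 1)) else 0) +
        s 0 ^ (d - j) * t 0 ^ j *
          evT n e (slice j L) (fun i => s (i + 1)) fun i => t (i + 1) := by
      intro j
      by_cases h : p.2 0 = j <;> simp [evT, slice, h, mul_add]; ring
    rw [sum_congr rfl fun j _ => key j, sum_add_distrib, sum_ite_eq, ← ih]
    simp only [mem_range, Nat.lt_succ_iff.2 hp, if_true, evT, List.map_cons, List.sum_cons, mono]
    rw [prod_range_succ']
    simp only [if_true, Nat.succ_ne_zero, Nat.add_sub_cancel, if_false]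
    ring

theorem normT_slice (j : ℕ) : ∀ L : Terms, normT (slice j L) ≤ normT L
  | [] => le_refl _
  | p :: L => by
    have := normT_slice j L
    by_cases h : p.2 0 = j <;> simp [normT, slice, h] at this ⊢ <;> omega

theorem evT_cons (d : ℕ) (D : Deg) {n : ℕ} (L : Terms) (s t : ℕ → R) :
    evT (n + 1) (fun i => (d :: D).getD i 0) L s t =
      evT (n + 1) (fun i => if i = 0 then d else D.getD (i - 1) 0) L s t := by
  have : (fun i => (d :: D).getD i 0) = fun i => if i = 0 then d else D.getD (i - 1) 0 := by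
    funext i; cases i <;> simp
  rw [this]

/-- The packed value of a slice. -/
def digitT (K : ℕ) (D : Deg) (L : Terms) (j : ℕ) : ℤ :=
  evT D.length (fun i => D.getD i 0) (slice j L) (fun _ => 1) (pt (weights K D))

theorem evT_pack (K : ℕ) (d : ℕ) (D : Deg) (L : Terms) (hL : ∀ p ∈ L, p.2 0 ≤ d) :
    evT (d :: D).length (fun i => (d :: D).getD i 0) L (fun _ => 1) (pt (weights K (d :: D))) =
      ∑ j ∈ range (d + 1), ((((2 : ℕ) ^ K) ^ size D : ℕ) : ℤ) ^ j * digitT K D L j := by
  rw [List.length_cons, evT_cons, evT_slice d (fun i => D.getD i 0) _ _ L hL]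
  refine sum_congr rfl fun j _ => ?_
  simp only [one_pow, one_mul, digitT]
  congr 1

theorem mem_slice {j : ℕ} {L : Terms} {q : ℤ × (ℕ → ℕ)} (h : q ∈ slice j L) :
    ∃ p ∈ L, p.2 0 = j ∧ q = (p.1, fun i => p.2 (i + 1)) := by
  simp only [slice, List.mem_map, List.mem_filter, decide_eq_true_eq] at h
  obtain ⟨p, ⟨hp, hj⟩, rfl⟩ := h
  exact ⟨p, hp, hj, rfl⟩

theorem mono_pack_le (K : ℕ) : ∀ (D : Deg) (J : ℕ → ℕ), (∀ i < D.length, J i ≤ D.getD i 0) →
    |mono D.length (fun i => D.getD i 0) J (fun _ => (1 : ℤ)) (pt (weights K D))| * 2 ^ K ≤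
      ((2 : ℤ) ^ K) ^ size D
  | [], J, _ => by simp [mono, size]
  | d :: D, J, h => by
    have ih := mono_pack_le K D (fun i => J (i + 1)) fun i hi => by
      simpa using h (i + 1) (by simpa using hi)
    have h0 : J 0 ≤ d := by simpa using h 0 (by simp)
    have hw : pt (weights K (d :: D)) 0 = ((2 : ℤ) ^ K) ^ size D := by simp [pt, weights]
    simp only [mono, one_pow, one_mul] at ih ⊢
    rw [List.length_cons, prod_range_succ', abs_mul, hw,
      abs_of_nonneg (a := (((2 : ℤ) ^ K) ^ size D) ^ J 0) (by positivity)]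
    have e : ∀ i, pt (weights K (d :: D)) (i + 1) = pt (weights K D) i := fun i => by
      simp [pt, weights]
    simp only [e]
    calc |∏ i ∈ range D.length, pt (weights K D) i ^ J (i + 1)| *
          (((2 : ℤ) ^ K) ^ size D) ^ J 0 * 2 ^ K
        = (((2 : ℤ) ^ K) ^ size D) ^ J 0 *
            (|∏ i ∈ range D.length, pt (weights K D) i ^ J (i + 1)| * 2 ^ K) := by ring
      _ ≤ (((2 : ℤ) ^ K) ^ size D) ^ J 0 * ((2 : ℤ) ^ K) ^ size D := by gcongr
      _ ≤ (((2 : ℤ) ^ K) ^ size D) ^ d * ((2 : ℤ) ^ K) ^ size D := by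
          gcongr
          exact one_le_pow₀ (one_le_pow₀ (by norm_num))
      _ = ((2 : ℤ) ^ K) ^ size (d :: D) := by
          rw [← pow_succ, ← pow_mul (n := d + 1), size, mul_comm (size D)]

theorem evT_pack_le (K : ℕ) (D : Deg) : ∀ L : Terms,
    (∀ p ∈ L, ∀ i < D.length, p.2 i ≤ D.getD i 0) →
      |evT D.length (fun i => D.getD i 0) L (fun _ => (1 : ℤ)) (pt (weights K D))| * 2 ^ K ≤
        (normT L : ℤ) * ((2 : ℤ) ^ K) ^ size D
  | [], _ => by simp [evT, normT]
  | p :: L, h => by
    have ih := evT_pack_le K D L fun q hq => h q (List.mem_cons_of_mem _ hq)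
    have hp := mono_pack_le K D p.2 (h p List.mem_cons_self)
    simp only [evT, normT, List.map_cons, List.sum_cons, Int.cast_id, Nat.cast_add,
      Int.natCast_natAbs] at ih ⊢
    refine le_trans (mul_le_mul_of_nonneg_right (abs_add_le _ _) (by positivity)) ?_
    rw [add_mul, add_mul, abs_mul, mul_assoc]
    exact add_le_add (mul_le_mul_of_nonneg_left hp (abs_nonneg _)) ih

theorem digitT_small {K d : ℕ} {D : Deg} {L : Terms} (hK : 2 * normT L < 2 ^ K)
    (h : ∀ p ∈ L, ∀ i < (d :: D).length, p.2 i ≤ (d :: D).getD i 0) (j : ℕ) :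
    2 * |digitT K D L j| < ((((2 : ℕ) ^ K) ^ size D : ℕ) : ℤ) := by
  have hq : ∀ q ∈ slice j L, ∀ i < D.length, q.2 i ≤ D.getD i 0 := by
    intro q hq i hi
    obtain ⟨p, hp, _, rfl⟩ := mem_slice hq
    simpa using h p hp (i + 1) (by simpa using hi)
  have h1 : |digitT K D L j| * 2 ^ K ≤ _ := evT_pack_le K D (slice j L) hq
  have h2 : (2 : ℤ) * (normT (slice j L) : ℤ) < 2 ^ K := by
    have := normT_slice j L
    exact_mod_cast (show 2 * normT (slice j L) < 2 ^ K by omega)
  have hX : (0 : ℤ) < ((2 : ℤ) ^ K) ^ size D := by positivity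
  push_cast
  refine lt_of_mul_lt_mul_right ?_ (show (0 : ℤ) ≤ 2 ^ K by positivity)
  calc 2 * |digitT K D L j| * 2 ^ K = 2 * (|digitT K D L j| * 2 ^ K) := by ring
    _ ≤ 2 * ((normT (slice j L) : ℤ) * ((2 : ℤ) ^ K) ^ size D) := by linarith
    _ = 2 * (normT (slice j L) : ℤ) * ((2 : ℤ) ^ K) ^ size D := by ring
    _ < 2 ^ K * ((2 : ℤ) ^ K) ^ size D := mul_lt_mul_of_pos_right h2 hX
    _ = ((2 : ℤ) ^ K) ^ size D * 2 ^ K := by ring

theorem digits_sound (f : ℤ → Bool) (X : ℕ) : ∀ (k : ℕ) (a : ℕ → ℤ),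
    (∀ j ≤ k, 2 * |a j| < (X : ℤ)) →
      digits f X k (∑ j ∈ range (k + 1), (X : ℤ) ^ j * a j) = true → ∀ j ≤ k, f (a j) = true
  | 0, a, _, h => by
    intro j hj
    simpa [digits, Nat.le_zero.1 hj] using h
  | k + 1, a, ha, h => by
    set T : ℤ := ∑ j ∈ range (k + 1), (X : ℤ) ^ j * a (j + 1)
    have hs : (∑ j ∈ range (k + 1 + 1), (X : ℤ) ^ j * a j) = a 0 + (X : ℤ) * T := by
      rw [sum_range_succ', mul_sum]
      simp only [pow_zero, one_mul, pow_succ]
      rw [add_comm]
      congr 1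
      exact sum_congr rfl fun j _ => by ring
    have hX : (X : ℤ) ≠ 0 := by
      have := ha 0 (Nat.zero_le _)
      have := abs_nonneg (a 0)
      omega
    have hb : (a 0 + (X : ℤ) * T).bmod X = a 0 := by
      rw [Int.add_mul_bmod_self_left]
      have h0 := ha 0 (Nat.zero_le _)
      rcases abs_cases (a 0) with ⟨e, _⟩ | ⟨e, _⟩ <;>
        exact Int.bmod_eq_of_le (by omega) (by omega)
    simp only [digits, Bool.and_eq_true, hs, hb, add_sub_cancel_left,
      Int.mul_ediv_cancel_left _ hX] at h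
    intro j hj
    cases j with
    | zero => exact h.1
    | succ i =>
      exact digits_sound f X k (fun j => a (j + 1)) (fun j hj => ha (j + 1) (by omega)) h.2 i
        (by omega)

theorem evT_zero (d : ℕ → ℕ) (L : Terms) (s t : ℕ → R) :
    evT 0 d L s t = (((L.map Prod.fst).sum : ℤ) : R) := by
  induction L <;> simp_all [evT, mono]

theorem signs_sound (S : Bool) (K : ℕ) : ∀ (D : Deg) (L : Terms) (s t : ℕ → ℝ),
    (∀ p ∈ L, ∀ i < D.length, p.2 i ≤ D.getD i 0) → 2 * normT L < 2 ^ K →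
    (∀ i < D.length, 0 ≤ s i ∧ 0 ≤ t i ∧ s i + t i = 1) →
    signs S K D (evT D.length (fun i => D.getD i 0) L (fun _ => 1) (pt (weights K D))) = true →
      0 ≤ evT D.length (fun i => D.getD i 0) L s t ∧
        (S = true → 0 < evT D.length (fun i => D.getD i 0) L s t)
  | [], L, s, t, _, _, _, h => by
    simp only [List.length_nil, List.getD_nil, signs, evT_zero, Int.cast_id] at h ⊢
    cases S
    · simp only [cond_false, decide_eq_true_eq] at h
      exact ⟨by exact_mod_cast h, by simp⟩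
    · simp only [cond_true, decide_eq_true_eq] at h
      exact ⟨by exact_mod_cast h.le, fun _ => by exact_mod_cast h⟩
  | d :: D, L, s, t, hL, hK, hst, h => by
    have hd : ∀ p ∈ L, p.2 0 ≤ d := fun p hp => by simpa using hL p hp 0 (by simp)
    rw [evT_pack K d D L hd, signs] at h
    have hall := digits_sound _ _ d _ (fun j _ => digitT_small hK hL j) h
    have hs : ∀ j ≤ d, 0 ≤ evT D.length (fun i => D.getD i 0) (slice j L) (fun i => s (i + 1))
          (fun i => t (i + 1)) ∧ (S = true → 0 < evT D.length (fun i => D.getD i 0) (slice j L)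
          (fun i => s (i + 1)) fun i => t (i + 1)) := by
      intro j hj
      refine signs_sound S K D (slice j L) _ _ ?_ ?_ ?_ (hall j hj)
      · intro q hq i hi
        obtain ⟨p, hp, _, rfl⟩ := mem_slice hq
        simpa using hL p hp (i + 1) (by simpa using hi)
      · have := normT_slice j L; omega
      · exact fun i hi => hst (i + 1) (by simpa using hi)
    rw [List.length_cons, evT_cons, evT_slice d (fun i => D.getD i 0) _ _ L hd]
    obtain ⟨s0, t0, st0⟩ := hst 0 (by simp)
    have nn : ∀ j ∈ range (d + 1), 0 ≤ s 0 ^ (d - j) * t 0 ^ j *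
        evT D.length (fun i => D.getD i 0) (slice j L) (fun i => s (i + 1)) fun i => t (i + 1) :=
      fun j hj => mul_nonneg (mul_nonneg (pow_nonneg s0 _) (pow_nonneg t0 _))
        (hs j (Nat.lt_succ_iff.1 (mem_range.1 hj))).1
    refine ⟨sum_nonneg nn, fun hS => sum_pos' nn ?_⟩
    rcases s0.eq_or_lt with e | e
    · refine ⟨d, self_mem_range_succ d, mul_pos (mul_pos ?_ ?_) ((hs d le_rfl).2 hS)⟩
      · simp
      · exact pow_pos (by linarith) _
    · exact ⟨0, mem_range.2 d.succ_pos, mul_pos (mul_pos (pow_pos e _) (by simp))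
        ((hs 0 (Nat.zero_le _)).2 hS)⟩

end Vale.Agent.P100.Bernstein
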