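import Mathlib.Analysis.Convex.Segment
import Vale.Agent.P100.Bernstein.Decode

/-!
# Positivity of a polynomial on a box by kernel evaluation

`pos_of_certify`: if `certify true e B T = true` (to be proved by `decide +kernel`), then
`0 < e.eval x` on the whole closed box `B`; `nonneg_of_certify` is the weak form. The tree `T`
bisects the box, `Tree.leaf` for no subdivision. Variable `i` runs over the `i`-th interval and
the point is a list, e.g. `x := [u, w, al, S]`.

Cost: a compositional expression of degree (5, 8, 14, 30), i.e. 25110 coefficients, takes about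
20 s and 3 GB. Keep the box fractions reduced, build big sums with explicit constructors (or in
chunks), since operator notation elaborates slowly.
-/

set_option linter.unusedSimpArgs false

namespace Vale.Agent.P100.Bernstein

/-- The value of an expression. -/
noncomputable def Expr.eval (x : List ℝ) : Expr → ℝ
  | .num c => c
  | .frac c d => c / d
  | .var i => x.getD i 0
  | .add a b => a.eval x + b.eval x
  | .sub a b => a.eval x - b.eval x
  | .neg a => -a.eval x
  | .mul a b => a.eval x * b.eval x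
  | .pow a k => a.eval x ^ k

section eval

variable (x : List ℝ) (a b : Expr)

@[simp] theorem Expr.eval_ofNat (n : ℕ) : (no_index (OfNat.ofNat n) : Expr).eval x = n := by
  show (Expr.num (n : ℤ)).eval x = n
  simp [Expr.eval]

@[simp] theorem Expr.eval_num (c : ℤ) : (Expr.num c).eval x = c := rfl
@[simp] theorem Expr.eval_frac (c : ℤ) (d : ℕ) : (Expr.frac c d).eval x = c / d := rfl
@[simp] theorem Expr.eval_var (i : ℕ) : (Expr.var i).eval x = x.getD i 0 := rfl
@[simp] theorem Expr.eval_add : (a + b).eval x = a.eval x + b.eval x := rfl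
@[simp] theorem Expr.eval_sub : (a - b).eval x = a.eval x - b.eval x := rfl
@[simp] theorem Expr.eval_neg : (-a).eval x = -a.eval x := rfl
@[simp] theorem Expr.eval_mul : (a * b).eval x = a.eval x * b.eval x := rfl
@[simp] theorem Expr.eval_pow (k : ℕ) : (a ^ k).eval x = a.eval x ^ k := rfl

end eval

theorem getD_addD : ∀ (a b : Deg) (i : ℕ), (addD a b).getD i 0 = a.getD i 0 + b.getD i 0
  | [], b, i => by simp [addD, -List.getD_eq_getElem?_getD, List.getD_cons_zero, List.getD_cons_succ, List.getD_nil]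
  | a :: p, [], i => by simp [addD, -List.getD_eq_getElem?_getD, List.getD_cons_zero, List.getD_cons_succ, List.getD_nil]
  | a :: p, b :: q, i => by cases i <;> simp [addD, getD_addD p q, -List.getD_eq_getElem?_getD, List.getD_cons_zero, List.getD_cons_succ, List.getD_nil]

theorem getD_maxD : ∀ (a b : Deg) (i : ℕ),
    (maxD a b).getD i 0 = max (a.getD i 0) (b.getD i 0)
  | [], b, i => by simp [maxD, -List.getD_eq_getElem?_getD, List.getD_cons_zero, List.getD_cons_succ, List.getD_nil]
  | a :: p, [], i => by simp [maxD, -List.getD_eq_getElem?_getD, List.getD_cons_zero, List.getD_cons_succ, List.getD_nil]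
  | a :: p, b :: q, i => by cases i <;> simp [maxD, getD_maxD p q, -List.getD_eq_getElem?_getD, List.getD_cons_zero, List.getD_cons_succ, List.getD_nil]

theorem getD_smulD (k : ℕ) : ∀ (a : Deg) (i : ℕ), (smulD k a).getD i 0 = k * a.getD i 0
  | [], i => by simp [smulD, -List.getD_eq_getElem?_getD, List.getD_cons_zero, List.getD_cons_succ, List.getD_nil]
  | a :: p, i => by cases i <;> simp [smulD, getD_smulD k p, -List.getD_eq_getElem?_getD, List.getD_cons_zero, List.getD_cons_succ, List.getD_nil]

theorem getD_unitD : ∀ (i j : ℕ), (unitD i).getD j 0 = if j = i then 1 else 0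
  | 0, j => by cases j <;> simp [unitD, -List.getD_eq_getElem?_getD, List.getD_cons_zero, List.getD_cons_succ, List.getD_nil]
  | i + 1, j => by cases j <;> simp [unitD, getD_unitD i, -List.getD_eq_getElem?_getD, List.getD_cons_zero, List.getD_cons_succ, List.getD_nil]

theorem length_padD : ∀ (n : ℕ) (d : Deg), (padD n d).length = n
  | 0, _ => rfl
  | n + 1, d => by simp [padD, length_padD n]

theorem getD_padD : ∀ (n : ℕ) (d : Deg) (i : ℕ), i < n → (padD n d).getD i 0 = d.getD i 0
  | n + 1, d, 0, _ => by cases d <;> simp [padD, -List.getD_eq_getElem?_getD, List.getD_cons_zero, List.getD_cons_succ, List.getD_nil]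
  | n + 1, d, i + 1, h => by
    cases d <;> simp [padD, getD_padD n _ i (Nat.lt_of_succ_lt_succ h), -List.getD_eq_getElem?_getD, List.getD_cons_zero, List.getD_cons_succ, List.getD_nil]

theorem powZ_eq (v : ℤ) : ∀ k, powZ v k = v ^ k
  | 0 => by simp [powZ]
  | k + 1 => by rw [powZ, powZ_eq v k, pow_succ]

theorem exists_weights {l h y : ℝ} (h1 : l ≤ y) (h2 : y ≤ h) :
    ∃ s t : ℝ, 0 ≤ s ∧ 0 ≤ t ∧ s + t = 1 ∧ y = l * s + h * t := by
  obtain ⟨s, t, hs, ht, hst, e⟩ :=
    (segment_eq_Icc (h1.trans h2) ▸ Set.mem_Icc.2 ⟨h1, h2⟩ : y ∈ segment ℝ l h)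
  exact ⟨s, t, hs, ht, hst, by rw [← e]; simp only [smul_eq_mul]; ring⟩

theorem exists_point : ∀ (B : List Iv) (x : List ℝ), okBox B = true → InBox B x →
    ∃ s t : ℕ → ℝ, ∀ i < B.length, 0 ≤ s i ∧ 0 ≤ t i ∧ s i + t i = 1 ∧
      0 < (B.getD i ⟨0, 0, 1⟩).den ∧
      ((B.getD i ⟨0, 0, 1⟩).den : ℝ) * x.getD i 0 =
        (B.getD i ⟨0, 0, 1⟩).lo * s i + (B.getD i ⟨0, 0, 1⟩).hi * t i
  | [], _, _, _ => ⟨fun _ => 1, fun _ => 0, fun i hi => absurd hi (Nat.not_lt_zero i)⟩
  | I :: B, x, ho, hx => by
    simp only [okBox, Bool.and_eq_true, decide_eq_true_eq] at ho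
    obtain ⟨b1, b2, b3⟩ := hx
    obtain ⟨s0, t0, hs, ht, hst, hy⟩ := exists_weights b1 b2
    obtain ⟨s, t, h⟩ := exists_point B x.tail ho.2 b3
    refine ⟨fun i => if i = 0 then s0 else s (i - 1), fun i => if i = 0 then t0 else t (i - 1),
      fun i hi => ?_⟩
    cases i with
    | zero =>
      refine ⟨by simpa using hs, by simpa using ht, by simpa using hst, by simpa using ho.1, ?_⟩
      cases x <;> simpa using hy
    | succ i =>
      have := h i (Nat.lt_of_succ_lt_succ hi)
      cases x <;> simpa using this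

/-- The invariant of `Expr.pack`. -/
def PGood (n : ℕ) (X : List ℕ) (s t : ℕ → ℝ) (p : Packed) (F : ℝ) : Prop :=
  0 < p.den ∧ Good n X s t (fun i => p.deg.getD i 0) p.bound p.val (p.den * F)

theorem pgood_addc {n : ℕ} {X : List ℕ} {s t : ℕ → ℝ} (hst : ∀ i < n, s i + t i = 1) (c : ℤ)
    {p q : Packed} {F G : ℝ} (hp : PGood n X s t p F) (hq : PGood n X s t q G) :
    PGood n X s t (Packed.addc n X c p q) (F + c * G) := by
  obtain ⟨dp, gp⟩ := hp
  obtain ⟨dq, gq⟩ := hq
  set L := Nat.lcm p.den q.den
  set D := maxD p.deg q.deg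
  have hL : 0 < L := Nat.lcm_pos dp dq
  refine ⟨hL, ?_⟩
  have a := ((good_lift (X := X) hst D p.deg n le_rfl).smul (L / p.den : ℕ)).mul gp
  have b := (((good_lift (X := X) hst D q.deg n le_rfl).smul (L / q.den : ℕ)).mul gq).smul c
  have a' := a.congr (d' := fun i => D.getD i 0) (fun i hi => by
    simp only [hi, if_true, D, getD_maxD]; omega) le_rfl rfl rfl
  have b' := b.congr (d' := fun i => D.getD i 0) (fun i hi => by
    simp only [hi, if_true, D, getD_maxD]; omega) le_rfl rfl rfl
  refine (a'.add b').congr (fun i _ => rfl) ?_ ?_ ?_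
  · simp only [Packed.addc, Int.natAbs_natCast]; exact le_rfl
  · simp only [Packed.addc]; push_cast; ring
  · have e : ∀ k : ℕ, 0 < k → k ∣ L → ((L / k : ℕ) : ℝ) * k = (L : ℝ) := fun k _ hk => by
      rw [← Nat.cast_mul, Nat.div_mul_cancel hk]
    simp only [Packed.addc, Int.cast_natCast, mul_one]
    linear_combination F * e _ dp (Nat.dvd_lcm_left _ _) +
      (c : ℝ) * G * e _ dq (Nat.dvd_lcm_right _ _)

theorem pack_sound (B : List Iv) (X : List ℕ) (x : List ℝ) (s t : ℕ → ℝ)
    (h : ∀ i < B.length, 0 ≤ s i ∧ 0 ≤ t i ∧ s i + t i = 1 ∧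
      0 < (B.getD i ⟨0, 0, 1⟩).den ∧
      ((B.getD i ⟨0, 0, 1⟩).den : ℝ) * x.getD i 0 =
        (B.getD i ⟨0, 0, 1⟩).lo * s i + (B.getD i ⟨0, 0, 1⟩).hi * t i) :
    ∀ e : Expr, e.ok B.length = true → PGood B.length X s t (e.pack B X) (e.eval x)
  | .num c, _ => ⟨one_pos, (good_const c).congr (fun i _ => by simp [Expr.pack]) le_rfl rfl
      (by simp [Expr.pack])⟩
  | .frac c d, he => by
    have hd : 0 < d := by simpa [Expr.ok] using he
    exact ⟨hd, (good_const c).congr (fun i _ => by simp [Expr.pack]) le_rfl rfl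
      (by simp only [Expr.pack, Expr.eval_frac]; field_simp)⟩
  | .var i, he => by
    have hi : i < B.length := by simpa [Expr.ok] using he
    obtain ⟨_, _, _, hd, hx⟩ := h i hi
    exact ⟨hd, (good_lin hi _ _).congr (fun j _ => by simp only [Expr.pack, getD_unitD]) le_rfl
      (by simp [Expr.pack, pt]) (by simp only [Expr.pack, Expr.eval_var]; rw [hx])⟩
  | .add a b, he => by
    simp only [Expr.ok, Bool.and_eq_true] at he
    simpa [Expr.pack, Expr.eval] using pgood_addc (fun i hi => (h i hi).2.2.1) 1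
      (pack_sound B X x s t h a he.1) (pack_sound B X x s t h b he.2)
  | .sub a b, he => by
    simp only [Expr.ok, Bool.and_eq_true] at he
    simpa [Expr.pack, Expr.eval, sub_eq_add_neg] using pgood_addc (fun i hi => (h i hi).2.2.1)
      (-1) (pack_sound B X x s t h a he.1) (pack_sound B X x s t h b he.2)
  | .neg a, he => by
    obtain ⟨d, g⟩ := pack_sound B X x s t h a (by simpa [Expr.ok] using he)
    exact ⟨d, (g.smul (-1)).congr (fun i _ => rfl) (by simp [Expr.pack]) (by simp [Expr.pack])
      (by simp [Expr.pack, Expr.eval])⟩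
  | .mul a b, he => by
    simp only [Expr.ok, Bool.and_eq_true] at he
    obtain ⟨da, ga⟩ := pack_sound B X x s t h a he.1
    obtain ⟨db, gb⟩ := pack_sound B X x s t h b he.2
    exact ⟨Nat.mul_pos da db, (ga.mul gb).congr (fun i _ => by simp only [Expr.pack, getD_addD])
      le_rfl rfl (by simp only [Expr.pack, Expr.eval, Nat.cast_mul]; ring)⟩
  | .pow a k, he => by
    obtain ⟨da, ga⟩ := pack_sound B X x s t h a (by simpa [Expr.ok] using he)
    exact ⟨pow_pos da k, (ga.pow k).congr (fun i _ => by simp only [Expr.pack, getD_smulD])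
      le_rfl (by simp only [Expr.pack, powZ_eq])
      (by simp only [Expr.pack, Expr.eval, Nat.cast_pow, mul_pow])⟩

theorem checkBox_sound {S : Bool} {e : Expr} {B : List Iv} {K : ℕ} {X : List ℕ}
    (he : e.ok B.length = true) (h : checkBox S e B K X = true) {x : List ℝ} (hx : InBox B x) :
    0 ≤ e.eval x ∧ (S = true → 0 < e.eval x) := by
  simp only [checkBox, Bool.and_eq_true, decide_eq_true_eq] at h
  obtain ⟨⟨⟨ho, hM⟩, hX⟩, hs⟩ := h
  obtain ⟨s, t, hst⟩ := exists_point B x ho hx
  obtain ⟨hden, hg⟩ := pack_sound B X x s t hst e he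
  set D := padD B.length (e.pack B X).deg
  have hlen : D.length = B.length := length_padD _ _
  obtain ⟨L, h1, h2, h3, h4⟩ := hg.congr (d' := fun i => D.getD i 0)
    (fun i hi => (getD_padD _ _ i hi).symm) le_rfl rfl rfl
  rw [← hlen] at h1 h3 h4
  rw [← h3, ← hX] at hs
  obtain ⟨r0, r1⟩ := signs_sound S K D L s t h1 (by omega)
    (fun i hi => ⟨(hst i (hlen ▸ hi)).1, (hst i (hlen ▸ hi)).2.1, (hst i (hlen ▸ hi)).2.2.1⟩) hs
  rw [h4] at r0 r1
  have hd : (0 : ℝ) < (e.pack B X).den := by exact_mod_cast hden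
  exact ⟨(mul_nonneg_iff_of_pos_left hd).1 r0, fun hS => (mul_pos_iff_of_pos_left hd).1 (r1 hS)⟩

theorem length_halves : ∀ (i : ℕ) (B : List Iv),
    (halves i B).1.length = B.length ∧ (halves i B).2.length = B.length
  | i, [] => by cases i <;> simp [halves]
  | 0, I :: B => by simp [halves]
  | i + 1, I :: B => by simp [halves, length_halves i B]

theorem inBox_halves : ∀ (i : ℕ) (B : List Iv) (x : List ℝ), InBox B x →
    InBox (halves i B).1 x ∨ InBox (halves i B).2 x
  | i, [], _, _ => Or.inl (by cases i <;> trivial)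
  | 0, I :: B, x, h => by
    obtain ⟨h1, h2, h3⟩ := h
    rcases le_total ((2 * I.den : ℝ) * x.headD 0) (I.lo + I.hi) with c | c
    · exact Or.inl ⟨by push_cast; linarith, by push_cast; linarith, h3⟩
    · exact Or.inr ⟨by push_cast; linarith, by push_cast; linarith, h3⟩
  | i + 1, I :: B, x, h => (inBox_halves i B x.tail h.2.2).imp
      (fun g => ⟨h.1, h.2.1, g⟩) (fun g => ⟨h.1, h.2.1, g⟩)

theorem checkTree_sound (S : Bool) (e : Expr) (x : List ℝ) : ∀ (T : Tree) (B : List Iv),
    e.ok B.length = true → checkTree S e B T = true → InBox B x →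
      0 ≤ e.eval x ∧ (S = true → 0 < e.eval x)
  | .leaf, B, he, h, hx => checkBox_sound he h hx
  | .split i l r, B, he, h, hx => by
    simp only [checkTree, Bool.and_eq_true] at h
    exact (inBox_halves i B x hx).elim
      (checkTree_sound S e x l _ ((length_halves i B).1.symm ▸ he) h.1)
      (checkTree_sound S e x r _ ((length_halves i B).2.symm ▸ he) h.2)

theorem nonneg_of_certify {S : Bool} {e : Expr} {B : List Iv} {T : Tree}
    (h : certify S e B T = true) {x : List ℝ} (hx : InBox B x) : 0 ≤ e.eval x := by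
  simp only [certify, Bool.and_eq_true] at h
  exact (checkTree_sound S e x T B h.1 h.2 hx).1

theorem pos_of_certify {e : Expr} {B : List Iv} {T : Tree}
    (h : certify true e B T = true) {x : List ℝ} (hx : InBox B x) : 0 < e.eval x := by
  simp only [certify, Bool.and_eq_true] at h
  exact (checkTree_sound true e x T B h.1 h.2 hx).2 rfl

end Vale.Agent.P100.Bernstein
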