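import Mathlib.Data.Nat.Log
import Mathlib.Data.Real.Basic
import Mathlib.Algebra.BigOperators.Group.List.Basic

/-!
# Bernstein sign test by packed integers (definitions)

A polynomial expression is pulled back to a box and written in the homogeneous basis
`∏ sᵢ ^ (dᵢ - jᵢ) * tᵢ ^ jᵢ`, `sᵢ + tᵢ = 1`. In this basis the product is a convolution and a
degree elevation is a product by a power of `sᵢ + tᵢ`. All coefficients are packed in one
integer (Kronecker substitution `sᵢ = 1`, `tᵢ` a power of `2 ^ K`), so every operation is one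
operation on integers; a bound on the absolute sum of the coefficients, computed along, makes
the unpacking exact.
-/

namespace Vale.Agent.P100.Bernstein

/-- A closed interval `[lo / den, hi / den]`. -/
structure Iv where
  /-- numerator of the left end -/
  lo : ℤ
  /-- numerator of the right end -/
  hi : ℤ
  /-- common denominator -/
  den : ℕ

/-- Membership of the first coordinates of `x` in a box. -/
def InBox : List Iv → List ℝ → Prop
  | [], _ => True
  | I :: B, x => (I.lo : ℝ) ≤ I.den * x.headD 0 ∧ I.den * x.headD 0 ≤ I.hi ∧ InBox B x.tail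

/-- Polynomial expressions with rational constants `c / d`. -/
inductive Expr where
  | num (c : ℤ)
  | frac (c : ℤ) (d : ℕ)
  | var (i : ℕ)
  | add (a b : Expr)
  | sub (a b : Expr)
  | neg (a : Expr)
  | mul (a b : Expr)
  | pow (a : Expr) (k : ℕ)

instance (n : ℕ) : OfNat Expr n := ⟨.num n⟩
instance : Add Expr := ⟨.add⟩
instance : Sub Expr := ⟨.sub⟩
instance : Neg Expr := ⟨.neg⟩
instance : Mul Expr := ⟨.mul⟩
instance : Pow Expr ℕ := ⟨.pow⟩

/-- Constants have nonzero denominators and variables are below `n`. -/
def Expr.ok (n : ℕ) : Expr → Bool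
  | .num _ => true
  | .frac _ d => decide (0 < d)
  | .var i => decide (i < n)
  | .add a b | .sub a b | .mul a b => a.ok n && b.ok n
  | .neg a => a.ok n
  | .pow a _ => a.ok n

/-- Degree vectors. -/
abbrev Deg := List ℕ

/-- Componentwise sum. -/
def addD : Deg → Deg → Deg
  | [], q => q
  | a :: p, [] => a :: p
  | a :: p, b :: q => (a + b) :: addD p q

/-- Componentwise maximum. -/
def maxD : Deg → Deg → Deg
  | [], q => q
  | a :: p, [] => a :: p
  | a :: p, b :: q => max a b :: maxD p q

/-- Componentwise multiple. -/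
def smulD (k : ℕ) : Deg → Deg
  | [] => []
  | a :: p => k * a :: smulD k p

/-- The unit vector in direction `i`. -/
def unitD : ℕ → Deg
  | 0 => [1]
  | i + 1 => 0 :: unitD i

/-- `(dᵢ - eᵢ)` summed over `i < n`. -/
def gap (d e : Deg) : ℕ → ℕ
  | 0 => 0
  | i + 1 => gap d e i + (d.getD i 0 - e.getD i 0)

/-- The packed elevation factor `∏ (1 + Xᵢ) ^ (dᵢ - eᵢ)` over `i < n`. -/
def lift (X : List ℕ) (d e : Deg) : ℕ → ℕ
  | 0 => 1
  | i + 1 => lift X d e i * (1 + X.getD i 1) ^ (d.getD i 0 - e.getD i 0)

/-- Degree, bound on the absolute sum of the coefficients, denominator and packed value. -/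
structure Packed where
  /-- degree in each variable -/
  deg : Deg
  /-- bound on the absolute sum of the coefficients -/
  bound : ℕ
  /-- denominator -/
  den : ℕ
  /-- packed coefficients -/
  val : ℤ

/-- Sum, with the sign `c` on the second summand. -/
def Packed.addc (n : ℕ) (X : List ℕ) (c : ℤ) (p q : Packed) : Packed where
  deg := maxD p.deg q.deg
  bound := Nat.lcm p.den q.den / p.den * 2 ^ gap (maxD p.deg q.deg) p.deg n * p.bound +
    c.natAbs * (Nat.lcm p.den q.den / q.den * 2 ^ gap (maxD p.deg q.deg) q.deg n * q.bound)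
  den := Nat.lcm p.den q.den
  val := ((Nat.lcm p.den q.den / p.den * lift X (maxD p.deg q.deg) p.deg n : ℕ) : ℤ) * p.val +
    c * (((Nat.lcm p.den q.den / q.den * lift X (maxD p.deg q.deg) q.deg n : ℕ) : ℤ) * q.val)

/-- Integer power, `k` products. -/
def powZ (v : ℤ) : ℕ → ℤ
  | 0 => 1
  | k + 1 => powZ v k * v

/-- The packed form of an expression on a box. -/
def Expr.pack (B : List Iv) (X : List ℕ) : Expr → Packed
  | .num c => ⟨[], c.natAbs, 1, c⟩
  | .frac c d => ⟨[], c.natAbs, d, c⟩
  | .var i => ⟨unitD i, (B.getD i ⟨0, 0, 1⟩).lo.natAbs + (B.getD i ⟨0, 0, 1⟩).hi.natAbs,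
      (B.getD i ⟨0, 0, 1⟩).den,
      (B.getD i ⟨0, 0, 1⟩).lo + (B.getD i ⟨0, 0, 1⟩).hi * (X.getD i 1 : ℕ)⟩
  | .add a b => Packed.addc B.length X 1 (a.pack B X) (b.pack B X)
  | .sub a b => Packed.addc B.length X (-1) (a.pack B X) (b.pack B X)
  | .neg a => ⟨(a.pack B X).deg, (a.pack B X).bound, (a.pack B X).den, -(a.pack B X).val⟩
  | .mul a b => ⟨addD (a.pack B X).deg (b.pack B X).deg, (a.pack B X).bound * (b.pack B X).bound,
      (a.pack B X).den * (b.pack B X).den, (a.pack B X).val * (b.pack B X).val⟩
  | .pow a k => ⟨smulD k (a.pack B X).deg, (a.pack B X).bound ^ k, (a.pack B X).den ^ k,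
      powZ (a.pack B X).val k⟩

/-- Number of coefficients for the degrees `D`. -/
def size : Deg → ℕ
  | [] => 1
  | d :: D => (d + 1) * size D

/-- The substituted values `(2 ^ K) ^ stride`. -/
def weights (K : ℕ) : Deg → List ℕ
  | [] => []
  | _ :: D => (2 ^ K) ^ size D :: weights K D

/-- Test `f` on the `j + 1` digits of `v` in base `X`. -/
def digits (f : ℤ → Bool) (X : ℕ) : ℕ → ℤ → Bool
  | 0, v => f v
  | j + 1, v => f (v.bmod X) && digits f X j ((v - v.bmod X) / (X : ℤ))

/-- All unpacked coefficients are positive (`s = true`) or nonnegative (`s = false`). -/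
def signs (s : Bool) (K : ℕ) : Deg → ℤ → Bool
  | [], v => bif s then decide (0 < v) else decide (0 ≤ v)
  | d :: D, v => digits (signs s K D) ((2 ^ K) ^ size D) d v

/-- The first `n` entries. -/
def padD : ℕ → Deg → Deg
  | 0, _ => []
  | n + 1, d => d.headD 0 :: padD n d.tail

/-- All denominators of a box are positive. -/
def okBox : List Iv → Bool
  | [] => true
  | I :: B => decide (0 < I.den) && okBox B

/-- The test on one box, given the substituted values. -/
def checkBox (s : Bool) (e : Expr) (B : List Iv) (K : ℕ) (X : List ℕ) : Bool :=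
  okBox B && decide (2 * (e.pack B X).bound < 2 ^ K) &&
    decide (weights K (padD B.length (e.pack B X).deg) = X) &&
    signs s K (padD B.length (e.pack B X).deg) (e.pack B X).val

/-- The digit size for an expression on a box. -/
def radix (e : Expr) (B : List Iv) : ℕ :=
  Nat.log2 (2 * (e.pack B []).bound) + 1

/-- The substituted values for an expression on a box. -/
def points (e : Expr) (B : List Iv) : List ℕ :=
  weights (radix e B) (padD B.length (e.pack B []).deg)

/-- A tree of bisections: `split i l r` halves the box along coordinate `i`. -/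
inductive Tree where
  | leaf
  | split (i : ℕ) (l r : Tree)

/-- The two halves of a box along coordinate `i`. -/
def halves : ℕ → List Iv → List Iv × List Iv
  | _, [] => ([], [])
  | 0, I :: B =>
    (⟨2 * I.lo, I.lo + I.hi, 2 * I.den⟩ :: B, ⟨I.lo + I.hi, 2 * I.hi, 2 * I.den⟩ :: B)
  | i + 1, I :: B => (I :: (halves i B).1, I :: (halves i B).2)

/-- The test on the leaves of a tree of bisections. -/
def checkTree (s : Bool) (e : Expr) : List Iv → Tree → Bool
  | B, .leaf => checkBox s e B (radix e B) (points e B)
  | B, .split i l r => checkTree s e (halves i B).1 l && checkTree s e (halves i B).2 r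

/-- The complete test: `s = true` for strict positivity, `false` for nonnegativity. -/
def certify (s : Bool) (e : Expr) (B : List Iv) (T : Tree) : Bool :=
  e.ok B.length && checkTree s e B T

end Vale.Agent.P100.Bernstein
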