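import Mathlib.Algebra.BigOperators.Intervals
import Mathlib.Algebra.BigOperators.Ring.Finset
import Mathlib.Tactic.Ring
import Mathlib.Tactic.Linarith
import Mathlib.Tactic.FieldSimp
import Mathlib.Tactic.Positivity
import Vale.Agent.P100.Bernstein.Defs

/-!
# Coefficient lists behind the packed integers
-/

namespace Vale.Agent.P100.Bernstein

open Finset

/-- A coefficient list: coefficients with exponent vectors. -/
abbrev Terms := List (ℤ × (ℕ → ℕ))

variable {R : Type*} [CommRing R]

/-- One basis element. -/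
def mono (n : ℕ) (d J : ℕ → ℕ) (s t : ℕ → R) : R :=
  ∏ i ∈ range n, s i ^ (d i - J i) * t i ^ J i

/-- Value of a coefficient list. -/
def evT (n : ℕ) (d : ℕ → ℕ) (L : Terms) (s t : ℕ → R) : R :=
  (L.map fun p => (p.1 : R) * mono n d p.2 s t).sum

/-- Absolute sum of the coefficients. -/
def normT (L : Terms) : ℕ := (L.map fun p => p.1.natAbs).sum

/-- The packing point. -/
def pt (X : List ℕ) (i : ℕ) : ℤ := (X.getD i 1 : ℕ)

/-- `v` packs coefficients of absolute sum at most `M` whose value at `(s, t)` is `F`. -/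
def Good (n : ℕ) (X : List ℕ) (s t : ℕ → ℝ) (d : ℕ → ℕ) (M : ℕ) (v : ℤ) (F : ℝ) : Prop :=
  ∃ L : Terms, (∀ p ∈ L, ∀ i < n, p.2 i ≤ d i) ∧ normT L ≤ M ∧
    evT n d L (fun _ => 1) (pt X) = v ∧ evT n d L s t = F

theorem mono_congr {n : ℕ} {d d' J : ℕ → ℕ} (h : ∀ i < n, d i = d' i) (s t : ℕ → R) :
    mono n d J s t = mono n d' J s t :=
  prod_congr rfl fun i hi => by rw [h i (mem_range.1 hi)]

variable {n : ℕ} {X : List ℕ} {s t : ℕ → ℝ} {d d' : ℕ → ℕ} {M M' : ℕ} {v v' : ℤ} {F F' : ℝ}

theorem Good.congr (h : Good n X s t d M v F) (hd : ∀ i < n, d i = d' i) (hM : M ≤ M')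
    (hv : v = v') (hF : F = F') : Good n X s t d' M' v' F' := by
  obtain ⟨L, h1, h2, h3, h4⟩ := h
  subst hv hF
  refine ⟨L, fun p hp i hi => hd i hi ▸ h1 p hp i hi, h2.trans hM, ?_, ?_⟩
  · rw [← h3]; exact (congrArg List.sum (List.map_congr_left fun p _ => by rw [mono_congr hd])).symm
  · rw [← h4]; exact (congrArg List.sum (List.map_congr_left fun p _ => by rw [mono_congr hd])).symm

theorem good_const (c : ℤ) : Good n X s t (fun _ => 0) c.natAbs c (c : ℝ) :=
  ⟨[(c, fun _ => 0)], by simp, by simp [normT], by simp [evT, mono], by simp [evT, mono]⟩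

theorem good_lin {i : ℕ} (hi : i < n) (a b : ℤ) :
    Good n X s t (fun j => if j = i then 1 else 0) (a.natAbs + b.natAbs) (a + b * pt X i)
      (a * s i + b * t i) := by
  refine ⟨[(a, fun _ => 0), (b, fun j => if j = i then 1 else 0)], ?_, by simp [normT], ?_, ?_⟩
  · intro p hp j _
    simp only [List.mem_cons, List.not_mem_nil, or_false] at hp
    rcases hp with rfl | rfl <;> simp
  all_goals
    simp only [evT, mono, List.map_cons, List.map_nil, List.sum_cons, List.sum_nil, add_zero,
      Int.cast_id]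
    rw [prod_eq_single_of_mem i (mem_range.2 hi) (fun j _ hj => by simp [hj]),
      prod_eq_single_of_mem i (mem_range.2 hi) (fun j _ hj => by simp [hj])]
    simp

theorem Good.add (h : Good n X s t d M v F) (h' : Good n X s t d M' v' F') :
    Good n X s t d (M + M') (v + v') (F + F') := by
  obtain ⟨L, h1, h2, h3, h4⟩ := h
  obtain ⟨L', g1, g2, g3, g4⟩ := h'
  refine ⟨L ++ L', fun p hp => ?_, ?_, ?_, ?_⟩
  · rcases List.mem_append.1 hp with hp | hp
    exacts [h1 p hp, g1 p hp]
  · simp only [normT, List.map_append, List.sum_append] at *; omega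
  · simp only [evT, List.map_append, List.sum_append] at *; rw [h3, g3]
  · simp only [evT, List.map_append, List.sum_append] at *; rw [h4, g4]

/-- Products of all pairs of terms. -/
def mulT (L L' : Terms) : Terms :=
  L.flatMap fun p => L'.map fun q => (p.1 * q.1, fun i => p.2 i + q.2 i)

theorem normT_mulT (L' : Terms) : ∀ L : Terms, normT (mulT L L') = normT L * normT L'
  | [] => by simp [mulT, normT]
  | p :: L => by
    have ih := normT_mulT L' L
    simp only [mulT, normT, List.flatMap_cons, List.map_append, List.sum_append, List.map_cons,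
      List.sum_cons, List.map_map] at ih ⊢
    rw [ih, add_mul]
    simp [Function.comp_def, Int.natAbs_mul, List.sum_map_mul_left]

theorem evT_mulT {d e : ℕ → ℕ} (s t : ℕ → R) (L' : Terms) (hL' : ∀ q ∈ L', ∀ i < n, q.2 i ≤ e i) :
    ∀ L : Terms, (∀ p ∈ L, ∀ i < n, p.2 i ≤ d i) →
      evT n (fun i => d i + e i) (mulT L L') s t = evT n d L s t * evT n e L' s t
  | [], _ => by simp [mulT, evT]
  | p :: L, hL => by
    have ih := evT_mulT s t L' hL' L fun q hq => hL q (List.mem_cons_of_mem _ hq)
    simp only [mulT, evT, List.flatMap_cons, List.map_append, List.sum_append, List.map_cons,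
      List.sum_cons, List.map_map] at ih ⊢
    rw [ih, add_mul, ← List.sum_map_mul_left L' _ ((p.1 : R) * mono n d p.2 s t)]
    congr 1
    refine congrArg List.sum (List.map_congr_left fun q hq => ?_)
    have hm : mono n (fun i => d i + e i) (fun i => p.2 i + q.2 i) s t =
        mono n d p.2 s t * mono n e q.2 s t := by
      rw [mono, mono, mono, ← prod_mul_distrib]
      refine prod_congr rfl fun i hi => ?_
      have a := hL p List.mem_cons_self i (mem_range.1 hi)
      have b := hL' q hq i (mem_range.1 hi)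
      have c : d i + e i - (p.2 i + q.2 i) = (d i - p.2 i) + (e i - q.2 i) := by omega
      rw [c, pow_add, pow_add]
      ring
    simp only [Function.comp_apply, Int.cast_mul, hm]
    ring

theorem Good.mul {e : ℕ → ℕ} (h : Good n X s t d M v F) (h' : Good n X s t e M' v' F') :
    Good n X s t (fun i => d i + e i) (M * M') (v * v') (F * F') := by
  obtain ⟨L, h1, h2, h3, h4⟩ := h
  obtain ⟨L', g1, g2, g3, g4⟩ := h'
  refine ⟨mulT L L', ?_, (normT_mulT L' L).trans_le (Nat.mul_le_mul h2 g2), ?_, ?_⟩
  · intro r hr i hi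
    simp only [mulT, List.mem_flatMap, List.mem_map] at hr
    obtain ⟨p, hp, q, hq, rfl⟩ := hr
    exact Nat.add_le_add (h1 p hp i hi) (g1 q hq i hi)
  · rw [evT_mulT _ _ L' g1 L h1, h3, g3]
  · rw [evT_mulT _ _ L' g1 L h1, h4, g4]

theorem Good.pow (h : Good n X s t d M v F) :
    ∀ k : ℕ, Good n X s t (fun i => k * d i) (M ^ k) (v ^ k) (F ^ k)
  | 0 => (good_const 1).congr (fun i _ => by simp) (by simp) (by simp) (by simp)
  | k + 1 => ((h.pow k).mul h).congr (fun i _ => by simp [add_mul]) (by rw [pow_succ])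
      (by rw [pow_succ]) (by rw [pow_succ])

theorem good_lift (hst : ∀ i < n, s i + t i = 1) (D e : Deg) : ∀ m ≤ n,
    Good n X s t (fun i => if i < m then D.getD i 0 - e.getD i 0 else 0) (2 ^ gap D e m)
      ((lift X D e m : ℕ) : ℤ) 1
  | 0, _ => (good_const 1).congr (fun i _ => by simp) (by simp [gap]) (by simp [lift]) (by simp)
  | m + 1, hm => by
    have hm' : m < n := hm
    have a := good_lift hst D e m hm'.le
    have b := (good_lin (X := X) (s := s) (t := t) hm' 1 1).pow (D.getD m 0 - e.getD m 0)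
    refine (a.mul b).congr (fun i _ => ?_) ?_ ?_ ?_
    · rcases lt_trichotomy i m with h | h | h
      · simp [h, h.ne, Nat.lt_succ_of_lt h]
      · simp [h]
      · simp [Nat.not_lt.2 h.le, h.ne', Nat.not_lt.2 (Nat.succ_le_of_lt h)]
    · simp [gap, pow_add]
    · simp only [lift, pt]; push_cast; ring
    · simp [hst m hm']

theorem Good.smul (h : Good n X s t d M v F) (c : ℤ) :
    Good n X s t d (c.natAbs * M) (c * v) ((c : ℝ) * F) :=
  ((good_const c).mul h).congr (fun i _ => by simp) le_rfl rfl rfl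

end Vale.Agent.P100.Bernstein
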